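import Vale.Agent.P352.GFDefs
import Mathlib.Analysis.Calculus.BumpFunction.FiniteDimension

/-! # P352W: compactly supported test functions are dense, with control of the supports -/

set_option linter.all false

noncomputable section

open MeasureTheory SchwartzMap Complex Filter Topology
open scoped SchwartzMap ComplexConjugate ContDiff

namespace Vale.Agent.P352W.Al

open Vale.Agent.P352.GF

/-- compactly supported functions are dense in Schwartz space; version with supports -/
theorem cut0 (f : 𝓢(V, ℂ)) : ∃ g : ℕ → 𝓢(V, ℂ),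
    (∀ n, HasCompactSupport (g n)) ∧ (∀ n, tsupport (g n) ⊆ tsupport f) ∧
      Tendsto g atTop (𝓝 f) := by
  set b : ContDiffBump (0 : V) := ⟨1, 2, one_pos, one_lt_two⟩ with hb
  set φ : V → ℂ := fun x => ((b x : ℝ) : ℂ) with hφ
  have hφs : ContDiff ℝ ∞ φ := ofRealCLM.contDiff.comp b.contDiff
  have hφc : HasCompactSupport φ :=
    b.hasCompactSupport.comp_left (g := fun r : ℝ => (r : ℂ)) (by simp)
  set r : ℕ → ℝ := fun n => ((n : ℝ) + 1)⁻¹ with hr
  have hr0 : ∀ n, 0 < r n := fun n => by (clear * -; positivity)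
  have hr1 : ∀ n, r n ≤ 1 := fun n => by
    rw [hr]
    apply inv_le_one_of_one_le₀
    have : (0 : ℝ) ≤ n := Nat.cast_nonneg n
    linarith only []
  set ψ : V → ℂ := fun x => 1 - φ x with hψ
  have hψs : ContDiff ℝ ∞ ψ := contDiff_const.sub hφs
  have hψbd : ∀ i : ℕ, ∃ C : ℝ, 0 ≤ C ∧ ∀ x, ‖iteratedFDeriv ℝ i ψ x‖ ≤ C := by
    intro i
    obtain ⟨C, hC⟩ := (hφs.continuous_iteratedFDeriv (m := i)
      (by exact_mod_cast le_top)).bounded_above_of_compact_support (hφc.iteratedFDeriv i)
    refine ⟨1 + C, ?_, fun x => ?_⟩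
    · have := (norm_nonneg _).trans (hC 0)
      linarith only [this]
    · have h1 : iteratedFDeriv ℝ i ψ x = iteratedFDeriv ℝ i (fun _ : V => (1 : ℂ)) x -
          iteratedFDeriv ℝ i φ x := by
        have h2 : (i : ℕ∞ω) ≤ ∞ := by exact_mod_cast le_top
        have := iteratedFDeriv_sub (i := i) (f := fun _ : V => (1 : ℂ)) (g := φ)
          (contDiff_const.of_le h2) (hφs.of_le h2)
        have h3 : ψ = (fun _ : V => (1 : ℂ)) - φ := rfl
        rw [h3, this]
        rfl
      rw [h1]
      refine (norm_sub_le _ _).trans (add_le_add ?_ (hC x))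
      rcases Nat.eq_zero_or_pos i with rfl | hi
      · rw [norm_iteratedFDeriv_zero]; simp
      · rw [iteratedFDeriv_const_of_ne hi.ne']; simp only [Pi.zero_apply, norm_zero, zero_le_one]
  set h : ℕ → V → ℂ := fun n x => ψ (r n • x) with hh
  have hhs : ∀ n, ContDiff ℝ ∞ (h n) := fun n => hψs.comp (contDiff_const_smul _)
  have hhbd : ∀ i : ℕ, ∃ C : ℝ, 0 ≤ C ∧ ∀ n x, ‖iteratedFDeriv ℝ i (h n) x‖ ≤ C := by
    intro i
    obtain ⟨C, hC0, hC⟩ := hψbd i
    refine ⟨C, hC0, fun n x => ?_⟩
    set g : V →L[ℝ] V := r n • ContinuousLinearMap.id ℝ V with hg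
    have h1 : h n = ψ ∘ g := rfl
    rw [h1, g.iteratedFDeriv_comp_right hψs x (i := i) (by exact_mod_cast le_top)]
    refine (ContinuousMultilinearMap.norm_compContinuousLinearMap_le _ _).trans ?_
    have hgn : ‖g‖ ≤ 1 := by
      refine ContinuousLinearMap.opNorm_le_bound _ zero_le_one fun x => ?_
      rw [hg]
      simp only [smul_apply, ContinuousLinearMap.id_apply, norm_smul,
        Real.norm_eq_abs, abs_of_pos (hr0 n)]
      exact mul_le_mul_of_nonneg_right (hr1 n) (norm_nonneg x)
    have hprod : ∏ _j : Fin i, ‖g‖ ≤ 1 := by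
      rw [Finset.prod_const]
      exact pow_le_one₀ (norm_nonneg _) hgn
    calc _ ≤ C * 1 := mul_le_mul (hC _) hprod (Finset.prod_nonneg fun _ _ => norm_nonneg _) hC0
      _ = C := mul_one C
  have hgs : ∀ n, ContDiff ℝ ∞ fun x => φ (r n • x) * f x := fun n =>
    (hφs.comp (contDiff_const_smul _)).mul (f.smooth _)
  have hgc : ∀ n, HasCompactSupport fun x => φ (r n • x) * f x := by
    intro n
    have h1 : HasCompactSupport fun x => φ (r n • x) :=
      hφc.comp_homeomorph (Homeomorph.smulOfNeZero (r n) (hr0 n).ne')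
    exact h1.mul_right
  refine ⟨fun n => (hgc n).toSchwartzMap (hgs n), fun n => hgc n, fun n => ?_, ?_⟩
  · refine closure_mono fun x hx => ?_
    intro hfx
    apply hx
    show φ (r n • x) * f x = 0
    rw [hfx, mul_zero]
  rw [(schwartz_withSeminorms ℝ V ℂ).tendsto_nhds_atTop]
  rintro ⟨k, m⟩ ε hε
  choose C hC0 hC using hhbd
  set M : ℝ := ∑ i ∈ Finset.range (m + 1), (m.choose i : ℝ) * C i *
    SchwartzMap.seminorm ℝ (k + 1) (m - i) f with hM
  have hM0 : 0 ≤ M := Finset.sum_nonneg fun i _ =>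
    mul_nonneg (mul_nonneg (Nat.cast_nonneg _) (hC0 i)) (apply_nonneg _ _)
  have key : ∀ n, SchwartzMap.seminorm ℝ k m ((hgc n).toSchwartzMap (hgs n) - f) ≤ r n * M := by
    intro n
    apply SchwartzMap.seminorm_le_bound ℝ k m _ (mul_nonneg (hr0 n).le hM0)
    intro x
    have hfun : (((hgc n).toSchwartzMap (hgs n) - f : 𝓢(V, ℂ)) : V → ℂ) =
        fun y => (- h n y) * f y := by
      funext y
      change φ (r n • y) * f y - f y = -(1 - φ (r n • y)) * f y
      ring
    rw [hfun]
    by_cases hx : ‖x‖ < (n : ℝ) + 1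
    · have hz : (fun y => (- h n y) * f y) =ᶠ[𝓝 x] fun _ => 0 := by
        have hmem : {y : V | ‖y‖ < (n : ℝ) + 1} ∈ 𝓝 x :=
          (isOpen_lt continuous_norm continuous_const).mem_nhds hx
        filter_upwards [hmem] with y hy
        have h1 : b (r n • y) = 1 := by
          apply b.one_of_mem_closedBall
          rw [mem_closedBall_zero_iff, norm_smul, Real.norm_eq_abs, abs_of_pos (hr0 n)]
          have h2 : r n * ‖y‖ ≤ r n * ((n : ℝ) + 1) :=
            mul_le_mul_of_nonneg_left (le_of_lt hy) (hr0 n).le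
          have h3 : r n * ((n : ℝ) + 1) = 1 := by
            rw [hr]; (clear * -; (clear * -; field_simp))
          rw [h3] at h2
          exact h2
        simp only [hh, hψ, hφ, h1, ofReal_one, sub_self, neg_zero, zero_mul]
      have h1 := (hz.iteratedFDeriv ℝ m).eq_of_nhds
      rw [h1]
      have h2 : iteratedFDeriv ℝ m (fun _ : V => (0 : ℂ)) x = 0 := by
        have := iteratedFDeriv_fun_zero (𝕜 := ℝ) (E := V) (F := ℂ) (n := m)
        exact congrFun this x
      rw [h2, norm_zero, mul_zero]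
      exact mul_nonneg (hr0 n).le hM0
    · push Not at hx
      have h1 := norm_iteratedFDeriv_mul_le (𝕜 := ℝ) (f := fun y => - h n y) (g := f)
        (N := (m : ℕ∞ω)) ((hhs n).neg.of_le (by exact_mod_cast le_top)) (f.smooth m) x le_rfl
      have h2 : 1 ≤ r n * ‖x‖ := by
        have h3 : r n * ((n : ℝ) + 1) = 1 := by
          rw [hr]; (clear * -; (clear * -; field_simp))
        rw [← h3]
        exact mul_le_mul_of_nonneg_left hx (hr0 n).le
      calc ‖x‖ ^ k * ‖iteratedFDeriv ℝ m (fun y => (- h n y) * f y) x‖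
          ≤ ‖x‖ ^ k * ∑ i ∈ Finset.range (m + 1), (m.choose i : ℝ) *
            ‖iteratedFDeriv ℝ i (fun y => - h n y) x‖ * ‖iteratedFDeriv ℝ (m - i) f x‖ := by
            (clear * - h1; gcongr)
        _ ≤ ‖x‖ ^ k * ∑ i ∈ Finset.range (m + 1), (m.choose i : ℝ) * C i *
            ‖iteratedFDeriv ℝ (m - i) f x‖ := by
            gcongr with i hi
            have h4 : iteratedFDeriv ℝ i (fun y => - h n y) x = - iteratedFDeriv ℝ i (h n) x :=
              iteratedFDeriv_neg_apply (𝕜 := ℝ) (f := h n)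
            rw [h4, norm_neg]
            exact hC i n x
        _ ≤ (r n * ‖x‖) * (‖x‖ ^ k * ∑ i ∈ Finset.range (m + 1), (m.choose i : ℝ) * C i *
            ‖iteratedFDeriv ℝ (m - i) f x‖) := by
            refine le_mul_of_one_le_left ?_ h2
            refine mul_nonneg (by (clear * -; (clear * -; positivity))) (Finset.sum_nonneg fun i _ =>
              mul_nonneg (mul_nonneg (Nat.cast_nonneg _) (hC0 i)) (norm_nonneg _))
        _ = r n * ∑ i ∈ Finset.range (m + 1), (m.choose i : ℝ) * C i *
            (‖x‖ ^ (k + 1) * ‖iteratedFDeriv ℝ (m - i) f x‖) := by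
            rw [Finset.mul_sum, Finset.mul_sum, Finset.mul_sum]
            refine Finset.sum_congr rfl fun i _ => ?_
            ring
        _ ≤ r n * M := by
            refine mul_le_mul_of_nonneg_left ?_ (hr0 n).le
            refine Finset.sum_le_sum fun i _ => ?_
            refine mul_le_mul_of_nonneg_left ?_ (mul_nonneg (Nat.cast_nonneg _) (hC0 i))
            exact SchwartzMap.le_seminorm ℝ (k + 1) (m - i) f x
  have hlim : Tendsto (fun n => r n * M) atTop (𝓝 0) := by
    have : Tendsto r atTop (𝓝 0) := by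
      have := tendsto_one_div_add_atTop_nhds_zero_nat (𝕜 := ℝ)
      simpa only [hr, one_div] using this
    simpa using this.mul_const M
  obtain ⟨N, hN⟩ := (hlim.eventually (gt_mem_nhds hε)).exists_forall_of_atTop
  exact ⟨N, fun n hn => lt_of_le_of_lt (key n) (hN n hn)⟩


/-- **CUT.** -/
theorem cut (g : Sch) : ∃ u : ℕ → Sch, Tendsto u atTop (𝓝 g) ∧
    ∀ k, HasCompactSupport (ev (u k)) ∧ tsupport (ev (u k)) ⊆ tsupport (ev g) := by
  obtain ⟨u, h1, h2, h3⟩ := cut0 g
  exact ⟨u, h3, fun k => ⟨h1 k, h2 k⟩⟩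

/-- spacelike separation passes to smaller supports -/
theorem sep_mono {f f' g g' : Fn} (h : Sep f g) (hf : tsupport f' ⊆ tsupport f)
    (hg : tsupport g' ⊆ tsupport g) : Sep f' g' := fun x hx y hy => h x (hf hx) y (hg hy)

/-- A closed relation between separately continuous functions of two test functions that holds for
compact spacelike supports holds for all spacelike supports. -/
theorem sep_ext {E : Type*} [TopologicalSpace E] [T2Space E] (a b : Fn → Fn → E)
    (ha1 : ∀ g, IsTest g → Continuous fun f : Sch => a (ev f) g)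
    (ha2 : ∀ f, IsTest f → Continuous fun g : Sch => a f (ev g))
    (hb1 : ∀ g, IsTest g → Continuous fun f : Sch => b (ev f) g)
    (hb2 : ∀ f, IsTest f → Continuous fun g : Sch => b f (ev g))
    (h : ∀ f g, IsTest f → HasCompactSupport f → IsTest g → HasCompactSupport g → Sep f g →
      a f g = b f g) {f g : Fn} (hf : IsTest f) (hg : IsTest g) (hs : Sep f g) : a f g = b f g := by
  have h1 : ∀ f g, IsTest f → IsTest g → HasCompactSupport g → Sep f g → a f g = b f g := by
    rintro _ g ⟨f, rfl⟩ hg hc hs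
    obtain ⟨u, hu, hk⟩ := cut f
    exact tendsto_nhds_unique (((ha1 g hg).tendsto f).comp hu) ((((hb1 g hg).tendsto f).comp hu).congr
      fun k => (h _ g ⟨_, rfl⟩ (hk k).1 hg hc (sep_mono hs (hk k).2 subset_rfl)).symm)
  obtain ⟨g, rfl⟩ := hg
  obtain ⟨u, hu, hk⟩ := cut g
  exact tendsto_nhds_unique (((ha2 f hf).tendsto g).comp hu) ((((hb2 f hf).tendsto g).comp hu).congr
    fun k => (h1 f _ hf ⟨_, rfl⟩ (hk k).1 (sep_mono hs subset_rfl (hk k).2)).symm)

theorem test_bar {f : Fn} (hf : IsTest f) : IsTest (bar f) := by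
  obtain ⟨g, rfl⟩ := hf
  exact ⟨SchwartzMap.postcompCLM (𝕜 := ℝ) (conjCLE : ℂ →L[ℝ] ℂ) g, rfl⟩

/-- **Locality for all spacelike supports from locality for compact supports.** `A'`, `B'` are the
formal adjoints. -/
theorem loc_ext {D : Type*} [NormedAddCommGroup D] [InnerProductSpace ℂ D] {A A' B B' : Fld D}
    (cA : ∀ v, Continuous fun g : Sch => A (ev g) v) (cB : ∀ v, Continuous fun g : Sch => B (ev g) v)
    (aA : ∀ f v w, IsTest f → inner ℂ (A f v) w = inner ℂ v (A' (bar f) w))
    (aB : ∀ f v w, IsTest f → inner ℂ (B f v) w = inner ℂ v (B' (bar f) w))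
    (h : ∀ f g v, IsTest f → HasCompactSupport f → IsTest g → HasCompactSupport g → Sep f g →
      A f (B g v) = B g (A f v)) {f g : Fn} (v : D) (hf : IsTest f) (hg : IsTest g) (hs : Sep f g) :
    A f (B g v) = B g (A f v) := by
  refine ext_inner_right ℂ fun w => ?_
  refine sep_ext (fun f g => inner ℂ (A f (B g v)) w) (fun f g => inner ℂ (B g (A f v)) w)
    (fun g _ => (cA _).inner continuous_const) (fun f hf => ?_) (fun g hg => ?_)
    (fun f _ => (cB _).inner continuous_const)
    (fun f g h1 h2 h3 h4 h5 => by simp only [h f g v h1 h2 h3 h4 h5]) hf hg hs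
  · simp only [aA f _ _ hf]
    exact (cB _).inner continuous_const
  · simp only [aB g _ _ hg]
    exact (cA _).inner continuous_const

end Vale.Agent.P352W.Al
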